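import Vale.Agent.P109.R996.Level

/-!
# P109, block [A] (helper874): near pairs, rounded kernels, heavy pairs (finite counting)
-/

open Finset

namespace Vale.Agent.P109.A874

/-! ### Counting near pairs -/

section near

variable {W0 : Type*} [Fintype W0]

/-- Number of cells in which `v` is not close to `w`. -/
def badCells {m : ℕ} (close : W0 → W0 → Prop) [∀ a b, Decidable (close a b)]
    (w v : Fin m → W0) : ℕ := (univ.filter fun c => ¬ close (w c) (v c)).card

/-- The number of cell sequences `v` which are close to `w` in all but `r` cells. -/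
theorem card_near_le [Nonempty W0] {m : ℕ} (close : W0 → W0 → Prop)
    [∀ a b, Decidable (close a b)] (w : Fin m → W0) (r : ℕ) (ℓ : ℝ) (hℓ : 1 ≤ ℓ)
    (hlist : ∀ a, (((univ.filter fun b => close a b).card : ℕ) : ℝ) ≤ ℓ) :
    (((univ.filter fun v : Fin m → W0 => badCells close w v ≤ r).card : ℕ) : ℝ) ≤
      2 ^ m * (Fintype.card W0 : ℝ) ^ r * ℓ ^ m := by
  classical
  have hcard : (1 : ℝ) ≤ (Fintype.card W0 : ℝ) := by exact_mod_cast Fintype.card_pos
  set F : Finset (Fin m) → Finset (Fin m → W0) := fun S =>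
    Fintype.piFinset fun c => if c ∈ S then univ else univ.filter fun b => close (w c) b with hF
  have hsub : (univ.filter fun v : Fin m → W0 => badCells close w v ≤ r) ⊆
      ((univ : Finset (Finset (Fin m))).filter fun S => S.card ≤ r).biUnion F := by
    intro v hv
    rw [mem_filter] at hv
    rw [mem_biUnion]
    refine ⟨univ.filter fun c => ¬ close (w c) (v c), ?_, ?_⟩
    · rw [mem_filter]; exact ⟨mem_univ _, hv.2⟩
    · rw [hF]
      simp only [Fintype.mem_piFinset]
      intro c
      by_cases hc : close (w c) (v c)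
      · simp [hc]
      · simp [hc]
  have hFcard : ∀ S : Finset (Fin m), S.card ≤ r →
      (((F S).card : ℕ) : ℝ) ≤ (Fintype.card W0 : ℝ) ^ r * ℓ ^ m := by
    intro S hS
    rw [hF]
    simp only [Fintype.card_piFinset]
    push_cast
    calc (∏ c, (((if c ∈ S then (univ : Finset W0) else
            univ.filter fun b => close (w c) b).card : ℕ) : ℝ))
        ≤ ∏ c, (if c ∈ S then (Fintype.card W0 : ℝ) else 1) * ℓ := by
          refine Finset.prod_le_prod (fun _ _ => by positivity) fun c _ => ?_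
          by_cases hc : c ∈ S
          · simp only [hc, if_true, card_univ]
            nlinarith
          · simp only [hc, if_false, one_mul]
            exact hlist _
      _ = (∏ c, (if c ∈ S then (Fintype.card W0 : ℝ) else 1)) * ℓ ^ m := by
          rw [Finset.prod_mul_distrib]; simp
      _ = (Fintype.card W0 : ℝ) ^ S.card * ℓ ^ m := by
          congr 1
          rw [Finset.prod_ite]
          simp
      _ ≤ (Fintype.card W0 : ℝ) ^ r * ℓ ^ m := by
          refine mul_le_mul_of_nonneg_right (pow_le_pow_right₀ hcard hS) (by positivity)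
  calc (((univ.filter fun v : Fin m → W0 => badCells close w v ≤ r).card : ℕ) : ℝ)
      ≤ (((((univ : Finset (Finset (Fin m))).filter fun S => S.card ≤ r).biUnion F).card : ℕ) : ℝ) := by
        exact_mod_cast card_le_card hsub
    _ ≤ ∑ S ∈ (univ : Finset (Finset (Fin m))).filter fun S => S.card ≤ r, (((F S).card : ℕ) : ℝ) := by
        exact_mod_cast card_biUnion_le
    _ ≤ ∑ _S ∈ (univ : Finset (Finset (Fin m))).filter fun S => S.card ≤ r,
          ((Fintype.card W0 : ℝ) ^ r * ℓ ^ m) :=
        Finset.sum_le_sum fun S hS => hFcard S (mem_filter.1 hS).2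
    _ = (((univ : Finset (Finset (Fin m))).filter fun S => S.card ≤ r).card : ℝ) *
          ((Fintype.card W0 : ℝ) ^ r * ℓ ^ m) := by rw [sum_const, nsmul_eq_mul]
    _ ≤ 2 ^ m * ((Fintype.card W0 : ℝ) ^ r * ℓ ^ m) := by
        refine mul_le_mul_of_nonneg_right ?_ (by positivity)
        have : ((univ : Finset (Finset (Fin m))).filter fun S => S.card ≤ r).card ≤ 2 ^ m := by
          refine (card_filter_le _ _).trans ?_
          simp
        exact_mod_cast this
    _ = _ := by ring

end near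

/-! ### Rounded kernels -/

section ker

variable {W V : Type*} [Fintype W] [Fintype V]

/-- The rounded kernels: multiples of `1 / M` bounded by `1`, supported on near pairs. -/
noncomputable def kerFam (near : W → V → Prop) (M : ℕ) : Finset (W → V → ℝ) := by
  classical
  exact (Fintype.piFinset
    (fun _ : {p : W × V // near p.1 p.2} => (univ : Finset (Fin (M + 1))))).image
      (fun g w v => if h : near w v then (((g ⟨(w, v), h⟩ : Fin (M + 1)) : ℕ) : ℝ) / M else 0)

theorem card_kerFam_le' (near : W → V → Prop) (M : ℕ) :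
    (kerFam near M).card ≤ (M + 1) ^ Nat.card {p : W × V // near p.1 p.2} := by
  unfold kerFam
  refine card_image_le.trans (le_of_eq ?_)
  simp only [Fintype.card_piFinset, card_univ, Fintype.card_fin, prod_const]
  congr 1
  exact (@Nat.card_eq_fintype_card _ (_)).symm

theorem card_kerFam_le (near : W → V → Prop) [∀ w v, Decidable (near w v)] (M : ℕ) :
    (kerFam near M).card ≤ (M + 1) ^ (univ.filter fun p : W × V => near p.1 p.2).card := by
  refine (card_kerFam_le' near M).trans (le_of_eq ?_)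
  congr 1
  rw [Nat.card_eq_fintype_card, Fintype.card_subtype]

/-- The rounded kernel of `f`. -/
noncomputable def rnd (near : W → V → Prop) (M : ℕ) (f : W → V → ℝ) : W → V → ℝ := by
  classical
  exact fun w v => if near w v then (⌈f w v * M⌉₊ : ℝ) / M else 0

theorem rnd_mem (near : W → V → Prop) {M : ℕ} (f : W → V → ℝ) (h1 : ∀ w v, f w v ≤ 1) :
    rnd near M f ∈ kerFam near M := by
  classical
  unfold kerFam rnd
  rw [mem_image]
  refine ⟨fun p => ⟨⌈f p.1.1 p.1.2 * M⌉₊, ?_⟩, ?_, ?_⟩
  · refine Nat.lt_succ_of_le (Nat.ceil_le.2 ?_)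
    have := mul_le_mul_of_nonneg_right (h1 p.1.1 p.1.2) (Nat.cast_nonneg (α := ℝ) M)
    linarith
  · simp
  · funext w v
    by_cases h : near w v <;> simp [h]

omit [Fintype W] [Fintype V] in
theorem rnd_nonneg (near : W → V → Prop) (M : ℕ) (f : W → V → ℝ) (w : W) (v : V) :
    0 ≤ rnd near M f w v := by
  classical
  unfold rnd
  split_ifs <;> positivity

omit [Fintype W] [Fintype V] in
theorem le_rnd (near : W → V → Prop) {M : ℕ} (hM : 0 < M) (f : W → V → ℝ) {w : W} {v : V}
    (h : near w v) : f w v ≤ rnd near M f w v := by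
  classical
  unfold rnd
  rw [if_pos h, le_div_iff₀ (by exact_mod_cast hM)]
  exact Nat.le_ceil _

omit [Fintype W] [Fintype V] in
theorem rnd_le (near : W → V → Prop) {M : ℕ} (hM : 0 < M) (f : W → V → ℝ) (h0 : ∀ w v, 0 ≤ f w v)
    (w : W) (v : V) : rnd near M f w v ≤ f w v + 1 / M := by
  classical
  unfold rnd
  have hM' : (0 : ℝ) < M := by exact_mod_cast hM
  split_ifs
  · rw [div_le_iff₀ hM', add_mul, one_div, inv_mul_cancel₀ hM'.ne']
    exact (Nat.ceil_lt_add_one (mul_nonneg (h0 w v) hM'.le)).le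
  · have := h0 w v
    positivity

omit [Fintype V] in
theorem sum_rnd_le (near : W → V → Prop) {M : ℕ} (hM : 0 < M) (f : W → V → ℝ)
    (h0 : ∀ w v, 0 ≤ f w v) (h1 : ∀ v, ∑ w, f w v ≤ 1) (v : V) :
    ∑ w, rnd near M f w v ≤ 1 + (Fintype.card W : ℝ) / M := by
  calc ∑ w, rnd near M f w v ≤ ∑ w, (f w v + 1 / M) :=
        Finset.sum_le_sum fun w _ => rnd_le near hM f h0 w v
    _ = ∑ w, f w v + (Fintype.card W : ℝ) / M := by
        rw [Finset.sum_add_distrib, Finset.sum_const, card_univ, nsmul_eq_mul]; ring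
    _ ≤ _ := by have := h1 v; linarith

end ker

/-! ### The weights `Λ`: total mass and heavy pairs -/

section lam

open Ent

variable {W V : Type*} [Fintype W] [Fintype V]

omit [Fintype W] in
theorem Lam_nonneg (near : W → V → Prop) [∀ w v, Decidable (near w v)] (k1 k2 : W → V → ℝ)
    (Lp : V × V → ℝ) (h1 : ∀ w v, 0 ≤ k1 w v) (h2 : ∀ w v, 0 ≤ k2 w v) (hL : ∀ v, 0 ≤ Lp v)
    (w : W × W) : 0 ≤ Lam near k1 k2 Lp w := by
  unfold Lam
  refine Finset.sum_nonneg fun v _ => ?_
  split_ifs
  · exact mul_nonneg (hL v) (mul_nonneg (h1 _ _) (h2 _ _))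
  · exact le_rfl

theorem sum_Lam_le (near : W → V → Prop) [∀ w v, Decidable (near w v)] (k1 k2 : W → V → ℝ)
    (Lp : V × V → ℝ) (h1 : ∀ w v, 0 ≤ k1 w v) (h2 : ∀ w v, 0 ≤ k2 w v) (hL : ∀ v, 0 ≤ Lp v)
    {a : ℝ} (hk1 : ∀ v, ∑ w, k1 w v ≤ a) (hk2 : ∀ v, ∑ w, k2 w v ≤ a)
    (hLt : ∑ v, Lp v ≤ 1) : ∑ w, Lam near k1 k2 Lp w ≤ a ^ 2 := by
  have ha : ∀ v : V, 0 ≤ a := fun v => (Finset.sum_nonneg fun w _ => h1 w v).trans (hk1 v)
  calc ∑ w, Lam near k1 k2 Lp w
      = ∑ v : V × V, ∑ w : W × W,
          if near w.1 v.1 ∧ near w.2 v.2 then Lp v * (k1 w.1 v.1 * k2 w.2 v.2) else 0 := by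
        unfold Lam; rw [Finset.sum_comm]
    _ ≤ ∑ v : V × V, ∑ w : W × W, Lp v * (k1 w.1 v.1 * k2 w.2 v.2) := by
        refine Finset.sum_le_sum fun v _ => Finset.sum_le_sum fun w _ => ?_
        have := mul_nonneg (hL v) (mul_nonneg (h1 w.1 v.1) (h2 w.2 v.2))
        split_ifs
        · exact le_rfl
        · exact this
    _ = ∑ v : V × V, Lp v * ((∑ w, k1 w v.1) * (∑ w, k2 w v.2)) := by
        refine Finset.sum_congr rfl fun v _ => ?_
        rw [← Finset.mul_sum, Fintype.sum_prod_type, Finset.sum_mul_sum]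
    _ ≤ ∑ v : V × V, Lp v * (a * a) := by
        refine Finset.sum_le_sum fun v _ => mul_le_mul_of_nonneg_left ?_ (hL v)
        exact mul_le_mul (hk1 _) (hk2 _) (Finset.sum_nonneg fun w _ => h2 w _) (ha v.1)
    _ = (∑ v : V × V, Lp v) * (a * a) := by rw [Finset.sum_mul]
    _ ≤ 1 * (a * a) := mul_le_mul_of_nonneg_right hLt (mul_self_nonneg a)
    _ = a ^ 2 := by ring

/-- Markov: the `μ`-mass of the heavy pairs. -/
theorem heavy_le (L : W × W → ℝ) (hL : ∀ w, 0 ≤ L w) {th T u : ℝ} (hth : 0 < th)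
    (hT : ∑ w, L w ≤ T) (μ : W × W → V × V → ℝ) 
    (hu : ∀ w, ∑ v, μ w v ≤ u) (hu0 : 0 ≤ u) :
    ∑ v : V × V, ∑ w : W × W, (if th < L w then μ w v else 0) ≤ u * T / th := by
  calc ∑ v : V × V, ∑ w : W × W, (if th < L w then μ w v else 0)
      = ∑ w : W × W, (if th < L w then ∑ v, μ w v else 0) := by
        rw [Finset.sum_comm]
        refine Finset.sum_congr rfl fun w _ => ?_
        split_ifs <;> simp
    _ ≤ ∑ w : W × W, (L w / th) * u := by
        refine Finset.sum_le_sum fun w _ => ?_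
        split_ifs with h
        · have h1 : 1 ≤ L w / th := by rw [le_div_iff₀ hth]; linarith
          calc ∑ v, μ w v ≤ u := hu w
            _ = 1 * u := (one_mul u).symm
            _ ≤ (L w / th) * u := mul_le_mul_of_nonneg_right h1 hu0
        · exact mul_nonneg (div_nonneg (hL w) hth.le) hu0
    _ = (∑ w, L w) / th * u := by rw [← Finset.sum_mul, ← Finset.sum_div]
    _ ≤ T / th * u := mul_le_mul_of_nonneg_right (div_le_div_of_nonneg_right hT hth.le) hu0
    _ = u * T / th := by ring

end lam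

end Vale.Agent.P109.A874
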